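import Mathlib
import Vale.Agent.P150.Defs
import Vale.Agent.P150.Iterate

/-!
Polynomial slowdown of Glauber dynamics for the SK model for every `β > 1`, and a gap bound
`1 - β²` valid for every `β`.
-/

namespace Vale.Agent.Results.P150.CriticalSlowdown

open Filter Topology Vale.Agent.P150

theorem result :
    (∀ β : ℝ, 1 < β → ∃ δ > (0 : ℝ),
      Tendsto (fun n : ℕ => (disorderLaw n).real {g | HasGap (gibbs β g) ((n : ℝ) ^ (-δ))})
        atTop (𝓝 0) ∧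
      Tendsto (fun n : ℕ => (disorderLaw n).real
        {g | ∃ t : ℝ, 0 ≤ t ∧ t ≤ (n : ℝ) ^ δ ∧ MixedAt (gibbs β g) t}) atTop (𝓝 0)) ∧
    (∀ β : ℝ, 0 < β → ∀ c > (0 : ℝ), ∀ ε > (0 : ℝ), ∀ᶠ n : ℕ in atTop,
      (disorderLaw n).real {g | HasGap (gibbs β g) c} ≤ max 0 (1 - β ^ 2) / c + ε) :=
  ⟨fun _ hβ => mixing_poly hβ, fun _ hβ _ hc _ hε => gap_limit hβ hc hε⟩

end Vale.Agent.Results.P150.CriticalSlowdown
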