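import Mathlib
import Vale.Agent.P150.Defs
import Vale.Agent.P150.High.Defs
import Vale.Agent.P150.High.Main
import Vale.Agent.P150.High.Lower

/-!
Mixing of heat-bath dynamics for the zero-field SK model: of order `log n` at every `β < 1/2`,
and never faster at any `β`.
-/

namespace Vale.Agent.Results.P150.FastMixingHalf

open Filter Topology Vale.Agent.P150 Vale.Agent.P150.High

theorem result :
    (∀ β : ℝ, 0 ≤ β → β < 1 / 2 →
      (∀ (n : ℕ) (g : Disorder n), ising (skJ β g) 0 = gibbs β g) ∧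
      (∀ ε > (0 : ℝ), Tendsto (fun n : ℕ => (disorderLaw n).real
        {g | ∀ b : Fin n → ℝ, HasGap (ising (skJ β g) b) (1 - 2 * β - ε)}) atTop (𝓝 1)) ∧
      (∀ (n : ℕ) (g : Disorder n) (c : ℝ), 0 < n → HasGap (gibbs β g) c → c ≤ 1) ∧
      (∃ C : ℝ, Tendsto (fun n : ℕ => (disorderLaw n).real
        {g | ∀ b : Fin n → ℝ, HasMLSI (ising (skJ β g) b) C}) atTop (𝓝 1)) ∧
      (∃ C : ℝ, Tendsto (fun n : ℕ => (disorderLaw n).real
        {g | MixedAt (gibbs β g) (C * Real.log n)}) atTop (𝓝 1))) ∧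
    (∀ β : ℝ, 0 ≤ β → ∃ c > (0 : ℝ), Tendsto (fun n : ℕ => (disorderLaw n).real
      {g | ∀ t : ℝ, 0 ≤ t → MixedAt (gibbs β g) t → c * Real.log n ≤ t}) atTop (𝓝 1)) := by
  refine ⟨fun β hβ hβ' => ⟨fun n g => ising_skJ β g, fun ε hε => gap_tendsto hβ hβ' hε,
    fun n g c hn h => ?_, ⟨mlsiConst β, mlsi_tendsto hβ hβ'⟩,
    ⟨2 * mlsiConst β, mixing_tendsto hβ hβ'⟩⟩, fun β hβ => lower_tendsto hβ⟩
  rw [← ising_skJ] at h
  exact gap_le_one _ hn h

end Vale.Agent.Results.P150.FastMixingHalf
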